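import Vale.Agent.P092RD.Pom3
import Mathlib.MeasureTheory.Measure.IntegralCharFun
import Mathlib.MeasureTheory.Measure.CharacteristicFunction.TaylorExpansion

/-! P092: two lemmas on operator valued measures on the line. -/

set_option linter.all false

open scoped InnerProductSpace ENNReal
open MeasureTheory Filter Topology Set

namespace Vale.Agent.P092OM

open Vale.Agent.P092RD Vale.Agent.P092RD.POM

variable {K : Type} [NormedAddCommGroup K] [InnerProductSpace ℂ K]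

theorem charFun_nu (H : POM ℝ K) (ξ : K) (t : ℝ) :
    charFun (H.ν ξ) t = ⟪ξ, H.f (ex t id) ξ⟫_ℂ := by
  rw [H.rep _ (bd_ex t measurable_id), charFun_apply_real]
  rfl

theorem shift_map {H₀ H₁ : POM ℝ K} {k : ℝ}
    (h : ∀ t : ℝ, H₁.f (ex t id) = Complex.exp (t * k * Complex.I) • H₀.f (ex t id)) (ξ : K) :
    H₁.ν ξ = (H₀.ν ξ).map (· + k) := Measure.ext_of_charFun (funext fun t => by
  rw [charFun_map_add_const, charFun_nu, charFun_nu, h, ContinuousLinearMap.smul_apply,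
    inner_smul_right, mul_comm]
  simp [mul_comm])

/-- **SHIFT** -/
theorem shift {H₀ H₁ : POM ℝ K} {k : ℝ}
    (h : ∀ t : ℝ, H₁.f (ex t id) = Complex.exp (t * k * Complex.I) • H₀.f (ex t id)) (ξ : K)
    {A : Set ℝ} (hA : MeasurableSet A) : H₁.ν ξ A = H₀.ν ξ {v | v + k ∈ A} := by
  rw [shift_map h, Measure.map_apply (measurable_add_const k) hA]
  rfl

theorem half_mass (μ : Measure ℝ) [IsFiniteMeasure μ] {r : ℝ} (hr : 0 < r)
    (h : ∀ t, |t| ≤ 2 * r⁻¹ → ‖μ.real univ - charFun μ t‖ ≤ μ.real univ / 4) :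
    μ.real univ / 2 ≤ μ.real (Icc (-r) r) := by
  rcases eq_zero_or_neZero μ with rfl | h0
  · simp
  have m : 0 < μ.real univ := measureReal_univ_pos
  have h1 := (measureReal_abs_gt_le_integral_charFun (μ := (μ univ)⁻¹ • μ) hr).trans
    (mul_le_mul_of_nonneg_left (intervalIntegral.norm_integral_le_of_norm_le_const (C := 4⁻¹)
      fun t ht => ?_) (by positivity))
  · rw [measureReal_ennreal_smul_apply, ENNReal.toReal_inv, ← Measure.real,
      show {x : ℝ | r < |x|} = (Icc (-r) r)ᶜ from Set.ext fun x => by simp [← abs_le],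
      measureReal_compl measurableSet_Icc, abs_of_pos (by rw [sub_pos]; nlinarith [inv_pos.2 hr]),
      inv_mul_le_iff₀ m, show 2⁻¹ * r * (4⁻¹ * (2 * r⁻¹ - -2 * r⁻¹)) = 2⁻¹ by field_simp; ring] at h1
    linarith
  · rw [uIoc_of_le (by nlinarith [inv_pos.2 hr])] at ht
    have := h t (abs_le.2 ⟨by linarith [ht.1], ht.2⟩)
    rw [charFun_apply, integral_smul_measure, ← charFun_apply, ENNReal.toReal_inv, ← Measure.real,
      show (1 : ℂ) - (μ.real univ)⁻¹ • charFun μ t = (μ.real univ)⁻¹ • (μ.real univ - charFun μ t) by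
        rw [smul_sub, Complex.real_smul (z := μ.real univ), ← Complex.ofReal_mul,
          inv_mul_cancel₀ m.ne']; rfl,
      norm_smul, norm_inv, Real.norm_of_nonneg m.le, inv_mul_le_iff₀ m]
    exact this

/-- **GAU**, for all intervals -/
theorem gau_all {H H₀ : POM ℝ K} (hH : H.IsP)
    (h : ∀ t : ℝ, ∃ c : ℂ, H₀.f (ex t id) = c • H.f (ex t id)) (h0 : H₀.f 1 ≠ 0) :
    ∃ ε : ℝ, 0 < ε ∧ ∀ a b : ℝ, ∃ R : ℝ, 0 < R ∧ ∀ η, ε * ‖H.P (Ioo a b) η‖ ^ 2 ≤
      (H₀.ν (H.P (Ioo a b) η)).real (Icc (-R) R) := by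
  choose c hc using h
  have e : ∀ ξ t, charFun (H₀.ν ξ) t = c t * charFun (H.ν ξ) t := fun ξ t => by
    rw [charFun_nu, charFun_nu, hc, ContinuousLinearMap.smul_apply, inner_smul_right]
  have n : ∀ ξ, (H.ν ξ).real univ = ‖ξ‖ ^ 2 := fun ξ => by simp [Measure.real, hH.ν_univ]
  obtain ⟨ξ, hξ⟩ : ∃ ξ, H₀.ν ξ univ ≠ 0 := by
    by_contra a
    exact h0 (H₀.P_univ ▸ (H₀.P_eq_zero_iff .univ).2 fun ξ => not_not.1 fun b => a ⟨ξ, b⟩)
  have h1 : c 0 * charFun (H.ν ξ) 0 ≠ 0 := by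
    rw [← e, charFun_zero]
    exact Complex.ofReal_ne_zero.2 ((measureReal_eq_zero_iff (measure_ne_top _ _)).not.2 hξ)
  have h2 : ContinuousAt c 0 :=
    (continuous_charFun.continuousAt.div continuous_charFun.continuousAt
      (right_ne_zero_of_mul h1)).congr ((continuous_charFun.continuousAt.eventually_ne
        (right_ne_zero_of_mul h1)).mono fun t a => by
          rw [Pi.div_apply, e, mul_div_cancel_right₀ _ a])
  have κ : 0 < ‖c 0‖ := norm_pos_iff.2 (left_ne_zero_of_mul h1)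
  refine ⟨‖c 0‖ / 2, half_pos κ, fun a b => ?_⟩
  obtain ⟨δ, d0, hδ⟩ := Metric.eventually_nhds_iff.1 ((h2.eventually (Metric.closedBall_mem_nhds _
    (show 0 < ‖c 0‖ / 8 by positivity))).and (((continuous_abs.mul continuous_const).tendsto' 0 0
      (by simp)).eventually_le_const (show (0 : ℝ) < 8⁻¹ by norm_num) :
        ∀ᶠ t : ℝ in 𝓝 0, |t| * (|a| + |b|) ≤ 8⁻¹))
  refine ⟨4 / δ, by positivity, fun η => ?_⟩
  have m := congrArg norm (e (H.P (Ioo a b) η) 0)
  rw [charFun_zero, charFun_zero, norm_mul, n, Complex.norm_real, Complex.norm_real,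
    Real.norm_of_nonneg measureReal_nonneg, Real.norm_of_nonneg (sq_nonneg _)] at m
  refine le_trans (by rw [m]; linarith) (half_mass _ (by positivity) fun t ht => ?_)
  obtain ⟨b1, b2⟩ := hδ (y := t) (by rw [Real.dist_eq, sub_zero]; rw [inv_div] at ht; linarith)
  have b3 : ‖charFun (H.ν (H.P (Ioo a b) η)) t - charFun (H.ν (H.P (Ioo a b) η)) 0‖ ≤
      8⁻¹ * ‖H.P (Ioo a b) η‖ ^ 2 := by
    rw [charFun_apply_real, charFun_apply_real, ← n]
    refine (congrArg norm (integral_sub (bd_int (bd_ex t measurable_id) _)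
      (bd_int (bd_ex 0 measurable_id) _))).ge.trans (norm_integral_le_of_norm_le_const ?_)
    rw [hH.ν_P measurableSet_Ioo]
    refine ae_restrict_of_forall_mem measurableSet_Ioo fun x hx => ?_
    have := Real.norm_exp_I_mul_ofReal_sub_one_le (x := t * x)
    rw [Real.norm_eq_abs, abs_mul, mul_comm Complex.I] at this
    refine le_trans (le_of_eq ?_) (this.trans ((mul_le_mul_of_nonneg_left (abs_le.2
      ⟨by linarith [hx.1, neg_abs_le a, abs_nonneg b], by
        linarith [hx.2, le_abs_self b, abs_nonneg a]⟩) (abs_nonneg t)).trans b2))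
    simp [ex]
  have b4 := (norm_charFun_le (μ := H.ν (H.P (Ioo a b) η)) t).trans_eq (n _)
  rw [← charFun_zero, e, e, m, norm_sub_rev, show ∀ x y z u : ℂ, x * y - z * u = (x - z) * y +
    z * (y - u) from fun x y z u => by ring]
  refine (norm_add_le_of_le ((norm_mul_le _ _).trans (mul_le_mul (mem_closedBall_iff_norm.1 b1) b4
    (norm_nonneg _) (by positivity))) ((norm_mul_le _ _).trans
      (mul_le_mul_of_nonneg_left b3 κ.le))).trans_eq (by ring)

/-- **GAU**, with an interval which carries mass -/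
theorem gau {H H₀ : POM ℝ K} (hH : H.IsP)
    (h : ∀ t : ℝ, ∃ c : ℂ, H₀.f (ex t id) = c • H.f (ex t id)) (h0 : H₀.f 1 ≠ 0) :
    ∃ a b ε R : ℝ, a < b ∧ 0 < ε ∧ H.P (Ioo a b) ≠ 0 ∧ ∀ η, ε * ‖H.P (Ioo a b) η‖ ^ 2 ≤
      (H₀.ν (H.P (Ioo a b) η)).real (Icc (-R) R) := by
  obtain ⟨ε, e0, he⟩ := gau_all hH h h0
  obtain ⟨m, hm⟩ : ∃ m : ℕ, H.P (Ioo (-(m : ℝ)) m) ≠ 0 := by
    by_contra a
    push Not at a
    refine h0 (ContinuousLinearMap.ext fun ξ => ?_)
    have := hH.ν_univ ξ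
    rw [← (iUnion_eq_univ_iff (f := fun m : ℕ => Ioo (-(m : ℝ)) m)).2 fun x =>
      (exists_nat_gt |x|).imp fun m b => abs_lt.1 b, measure_iUnion_null fun m =>
      (H.P_eq_zero_iff measurableSet_Ioo).1 (a m) ξ] at this
    rw [enorm_eq_zero.1 (pow_eq_zero_iff two_ne_zero |>.1 this.symm), map_zero, map_zero]
  obtain ⟨R, -, hR⟩ := he (-m) m
  exact ⟨_, _, ε, R, not_le.1 fun a => hm (by rw [Ioo_eq_empty_of_le a, H.P_empty]), e0, hm, hR⟩

end Vale.Agent.P092OM
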