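import Vale.Agent.P092NW.Calc

/-! P092, block B4, OMEGA: banded contractions and the key estimate at a fixed time. -/

set_option linter.all false

open Filter Topology ContinuousLinearMap
open scoped InnerProductSpace

noncomputable section

namespace Vale.Agent.P092OM

open Vale.Agent.P092WN Vale.Agent.P092NW

variable {G Γ H H₀ : Type} [Group G] [Group Γ] [NormedAddCommGroup H] [InnerProductSpace ℂ H]
  [CompleteSpace H] [NormedAddCommGroup H₀] [InnerProductSpace ℂ H₀] {S : Sys G Γ H H₀}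
  {len : Γ → ℝ} {r' : ℕ} {gap : Fin r' → Γ → ℝ} {C J J' d x y ε : ℝ} {A : ℝ → Set Γ}
  {X X' Y : H →L[ℂ] H}

/-- operators of band `J` -/
def Bnd (S : Sys G Γ H H₀) (len : Γ → ℝ) (X : H →L[ℂ] H) (J : ℝ) : Prop :=
  ∀ E E' : Set Γ, (∀ γ u v, len u + len v ≤ J → u * γ * v ∈ E → γ ∈ E') → Sup S X E E'

theorem Bnd.mono (h : Bnd S len X J) (e : J ≤ J') : Bnd S len X J' :=
  fun E E' a => h E E' fun γ u v b => a γ u v (b.trans e)

theorem Bnd.mul (hG : Gp len gap C) (h : Bnd S len X J) (h' : Bnd S len Y J') :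
    Bnd S len (X * Y) (J + J') := fun E E' a =>
  (h E {γ | ∃ u v, len u + len v ≤ J ∧ u * γ * v ∈ E} fun _ u v b c => ⟨u, v, b, c⟩).mul
    (h' _ E' fun γ u v b ⟨u', v', c, e⟩ => a γ (u' * u) (v * v')
      (by linarith [hG.len_mul u' u, hG.len_mul v v']) (by simpa only [mul_assoc] using e))

theorem bnd_one (hS : Ex S) (hG : Gp len gap C) : Bnd S len 1 0 := fun E E' a =>
  hS.sup_one fun γ b => a γ 1 1 (by rw [hG.len_one, add_zero]) (by rwa [one_mul, mul_one])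

theorem Bnd.pow (hS : Ex S) (hG : Gp len gap C) (h : Bnd S len X J) (n : ℕ) :
    Bnd S len (X ^ n) (n * J) := by
  induction n with
  | zero => simpa using bnd_one hS hG
  | succ n ih => rw [pow_succ, Nat.cast_succ, add_one_mul]; exact ih.mul hG h

theorem Bnd.adj (hG : Gp len gap C) (h : Bnd S len X J) : Bnd S len (adjoint X) J := fun E E' a v => by
  have := h E'ᶜ Eᶜ fun γ u w b c e => c (a _ u⁻¹ w⁻¹ (by rwa [hG.len_inv, hG.len_inv])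
    (by simpa only [mul_assoc, mul_inv_cancel, mul_one, inv_mul_cancel_left] using e))
  rw [← sub_eq_zero, ← map_sub, ← map_sub, ← Pr_compl]
  refine ext_inner_left ℂ fun z => ?_
  have h2 := this z
  rw [Pr_compl S E, map_sub, map_sub, eq_comm, sub_eq_self] at h2
  rw [← Pr_sa, adjoint_inner_right, ← Pr_sa, h2, inner_zero_left, inner_zero_right]

theorem bnd_l (hS : Ex S) (hG : Gp len gap C) {s : Γ}
    (h : ∀ f, Bd f → ∀ v, S.m f (X v) = X (S.m (fun γ => f (s * γ)) v)) (e : len s ≤ J) :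
    Bnd S len X J := fun E E' a => hS.sup_hom h fun γ b =>
  a γ s 1 (by rwa [hG.len_one, add_zero]) (by rwa [mul_one])

theorem bnd_r (hS : Ex S) (hG : Gp len gap C) {s : Γ}
    (h : ∀ f, Bd f → ∀ v, S.m f (X v) = X (S.m (fun γ => f (γ * s)) v)) (e : len s ≤ J) :
    Bnd S len X J := fun E E' a => hS.sup_hom h fun γ b =>
  a γ 1 s (by rwa [hG.len_one, zero_add]) (by rwa [one_mul])

theorem bnd_sum {ι : Type} (s : Finset ι) {B : ι → H →L[ℂ] H} (h : ∀ i ∈ s, Bnd S len (B i) J) :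
    Bnd S len (∑ i ∈ s, B i) J := fun E E' a => Sup.sum s fun i hi => h i hi E E' a

section lev

variable (hG : Gp len gap C) (hA : Lev len C A) (h : Bnd S len X J) (hd : C * J ≤ d)
include hG hA hd

theorem lev_le {γ u v : Γ} (b : len u + len v ≤ J) (c : γ ∈ A x) : u * γ * v ∈ A (x - d) :=
  hA.anti (by nlinarith [hG.one_le]) (hA.lip x γ u v c)

theorem lev_le' {γ u v : Γ} (b : len u + len v ≤ J) (c : u * γ * v ∈ A x) : γ ∈ A (x - d) := by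
  simpa only [mul_assoc, mul_inv_cancel, mul_one, inv_mul_cancel_left] using
    lev_le hG hA hd (u := u⁻¹) (v := v⁻¹) (by rwa [hG.len_inv, hG.len_inv]) c

include h

theorem Bnd.supA : Sup S X (A x) (A (x - d)) := h _ _ fun _ _ _ b c => lev_le' hG hA hd b c

theorem Bnd.lay : Sup S X (A x \ A y) (A (x - d) \ A (y + d)) := h _ _ fun _ _ _ b c =>
  ⟨lev_le' hG hA hd b c.1, fun e => c.2 (by simpa using lev_le hG hA hd b e)⟩

theorem Bnd.comm (hS : Ex S) (h0 : 0 ≤ d) (h1 : ∀ v, ‖X v‖ ≤ ‖v‖) (v : H) :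
    ‖Pr S (A x) (X v) - X (Pr S (A x) v)‖ ≤ 2 * ‖Pr S (A (x - d) \ A (x + d)) v‖ := by
  simpa using hS.comm_Pr (c := 1) (by simpa using h1) zero_le_one (hA.anti (sub_le_self x h0))
    (hA.anti (le_add_of_nonneg_right h0)) (h.supA hG hA hd)
    (h _ _ fun _ _ _ b c e => c (by simpa using lev_le hG hA hd b e)) v

end lev

/-- banded contractions whose adjoint is a contraction -/
structure Gd (S : Sys G Γ H H₀) (len : Γ → ℝ) (X : H →L[ℂ] H) (J : ℝ) : Prop where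
  ct : S.Ct X
  ad : S.Ct (adjoint X)
  bnd : Bnd S len X J

theorem Gd.mono (h : Gd S len X J) (e : J ≤ J') : Gd S len X J' := ⟨h.ct, h.ad, h.bnd.mono e⟩

theorem Gd.mul (hG : Gp len gap C) (h : Gd S len X J) (h' : Gd S len Y J') :
    Gd S len (X * Y) (J + J') :=
  ⟨ct_mul h.ct h'.ct, by rw [mul_def, adjoint_comp]; exact ct_mul h'.ad h.ad, h.bnd.mul hG h'.bnd⟩

theorem Gd.adj (hG : Gp len gap C) (h : Gd S len X J) : Gd S len (adjoint X) J :=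
  ⟨h.ad, by rw [adjoint_adjoint]; exact h.ct, h.bnd.adj hG⟩

theorem ct_half (h : S.Ct X) (h' : S.Ct Y) : S.Ct (((2⁻¹ : ℝ) : ℂ) • (X - Y)) := by
  refine ⟨fun v => ?_, fun v B a => S.am_mono _ _ _ (S.am_smul 2⁻¹ _ _
    (am_sub S (h.2 v B a) (h'.2 v B a))) (by rw [abs_of_pos (by norm_num)]; linarith)⟩
  rw [smul_apply, norm_smul, sub_apply, Complex.norm_real, Real.norm_of_nonneg (by norm_num)]
  linarith [norm_sub_le (X v) (Y v), h.1 v, h'.1 v]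

theorem Gd.half (h : Gd S len X J) (h' : Gd S len Y J) : Gd S len (((2⁻¹ : ℝ) : ℂ) • (X - Y)) J :=
  ⟨ct_half h.ct h'.ct, by
    rw [← star_eq_adjoint, star_smul, star_sub, Complex.star_def, Complex.conj_ofReal]
    exact ct_half h.ad h'.ad, fun E E' a => ((h.bnd E E' a).sub (h'.bnd E E' a)).smul _⟩

theorem gd_la (hS : Ex S) (hG : Gp len gap C) {g : G} (y : S.LA len g J ε) :
    Gd S len (∑ s ∈ y.F, y.l s) J :=
  ⟨y.ct_sum, hS.lf_adj g _ (hS.lf_sum _ y.lf) y.ct_sum,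
    bnd_sum _ fun s a => bnd_l hS hG (y.hom s a) (y.len_le s a)⟩

theorem gd_lb (hS : Ex S) (hG : Gp len gap C) {g : G} {N : ℝ} (y : LB S len g J N ε) :
    Gd S len y.op J :=
  ⟨y.ct, hS.lf_adj g _ (hS.lf_sum _ fun i _ => (y.hl i).lf) y.ct,
    bnd_sum _ fun i _ => bnd_l hS hG (y.hl i).hom (y.len_le i)⟩

theorem gd_ra (hS : Ex S) (hG : Gp len gap C) {s : G} (y : S.RA len s J ε) (g : G) :
    Gd S len (∑ t ∈ y.F, y.r t g) J :=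
  ⟨y.ct_sum g, hS.rt_adj (fun g => ∑ t ∈ y.F, y.r t g) g (hS.rt_sum _ y.rt) (y.ct_sum g),
    bnd_sum _ fun s a => bnd_r hS hG (y.hom s a g) (y.len_le s a)⟩

theorem gd_hm (hS : Ex S) (hG : Gp len gap C) {b : G → H →L[ℂ] H} {τ : Γ} (h : Hm S b τ) (g : G) :
    Gd S len (b g) (len τ) :=
  ⟨h.ct g, hS.rt_adj b g h.rt (h.ct g), bnd_r hS hG (h.hom g) le_rfl⟩

theorem norm_avg {p : ℕ} (hp : 0 < p) {v : Fin p → H} {c : ℝ} (h : ∀ l, ‖v l‖ ≤ c) :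
    ‖(p : ℂ)⁻¹ • ∑ l, v l‖ ≤ c := by
  rw [norm_smul, norm_inv, Complex.norm_natCast, inv_mul_le_iff₀ (Nat.cast_pos.2 hp)]
  simpa using norm_sum_le_of_le Finset.univ fun l _ => h l

theorem ct_avg {p : ℕ} (hp : 0 < p) {B : Fin p → H →L[ℂ] H} (h : ∀ l, S.Ct (B l)) :
    S.Ct ((p : ℂ)⁻¹ • ∑ l, B l) := by
  refine ⟨fun v => ?_, fun v c a => ?_⟩ <;> rw [smul_apply, sum_apply]
  · exact norm_avg hp fun l => (h l).1 v
  · have := S.am_smul (p : ℝ)⁻¹ _ _ (am_sum S Finset.univ fun l _ => (h l).2 v c a)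
    rw [Finset.sum_const, Finset.card_fin, nsmul_eq_mul, abs_of_pos (by positivity),
      inv_mul_cancel_left₀ (by positivity)] at this
    simpa using this

/-- the averaging operator: a banded contraction which is close to the projection on `ζ a` -/
theorem exists_avg (hS : Ex S) (hG : Gp len gap C) {a : G} {p : ℕ} {s : Fin p → G} (hp : 0 < p)
    (hs : ∀ l, s l * a = a * s l) {θ : ℝ} (h0 : 0 ≤ θ)
    (hθ : ∀ v, ‖((p : ℂ))⁻¹ • ∑ l, S.σ (s l) v‖ ≤ θ * ‖v‖) (y : ∀ l, S.LA len (s l) J ε)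
    (z : ∀ l, S.RA len (s l)⁻¹ J ε) {n : ℕ} (hn : 1 ≤ n) : ∃ Φ : H →L[ℂ] H, (∀ v, ‖Φ v‖ ≤ ‖v‖) ∧
      Bnd S len Φ (n * (J + J)) ∧ ∀ W, S.Am W 1 → ‖W‖ ≤ 1 →
        ‖Φ W - ⟪S.ζ a, W⟫_ℂ • S.ζ a‖ ≤ θ ^ n + 2 * (n * ε) := by
  have e : ∀ l, s l * a * (s l)⁻¹ = a := fun l => by rw [hs, mul_inv_cancel_right]
  let Ψ : H →L[ℂ] H := (p : ℂ)⁻¹ • ∑ l, (∑ t ∈ (z l).F, (z l).r t (s l * a)) * ∑ t ∈ (y l).F, (y l).l t
  let Ψ₀ : H →L[ℂ] H := (p : ℂ)⁻¹ • ∑ l, S.R (s l * a) (s l)⁻¹ * S.L (s l)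
  have c1 : S.Ct Ψ := ct_avg hp fun l => ct_mul ((z l).ct_sum _) (y l).ct_sum
  have c0 : S.Ct Ψ₀ := ct_avg hp fun l => ct_mul (hS.R_ct _ _) (hS.L_ct _)
  have c2 : ∀ m, S.Ct (Ψ ^ m) := fun m => by
    induction m with
    | zero => exact ct_one S
    | succ m ih => rw [pow_succ]; exact ct_mul ih c1
  have d1 : ∀ U, S.Am U 1 → ‖Ψ U - Ψ₀ U‖ ≤ 2 * ε := fun U hU => by
    rw [smul_apply, smul_apply, ← smul_sub, sum_apply, sum_apply, ← Finset.sum_sub_distrib]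
    refine norm_avg hp fun l => (norm_sub_le_norm_sub_add_norm_sub _
      ((∑ t ∈ (z l).F, (z l).r t (s l * a)) (S.L (s l) U)) _).trans ?_
    rw [mul_ap, mul_ap, ← map_sub (∑ t ∈ (z l).F, (z l).r t (s l * a))]
    linarith [((z l).ct_sum (s l * a)).1 ((∑ t ∈ (y l).F, (y l).l t) U - S.L (s l) U),
      (y l).err U 1 hU, (z l).err (s l * a) _ 1 ((hS.L_ct (s l)).2 U 1 hU)]
  refine ⟨Ψ ^ n, (c2 n).1, Bnd.pow hS hG (fun E E' b => (bnd_sum _ (fun l _ =>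
    (gd_ra hS hG (z l) _).bnd.mul hG (gd_la hS hG (y l)).bnd) E E' b).smul _) n, fun W a1 a2 => ?_⟩
  have d2 : ∀ m : ℕ, ‖(Ψ ^ m) W - (Ψ₀ ^ m) W‖ ≤ 2 * (m * ε) := fun m => by
    induction m with
    | zero => simp
    | succ m ih =>
      rw [pow_succ', pow_succ', mul_ap, mul_ap]
      refine (norm_sub_le_norm_sub_add_norm_sub _ (Ψ₀ ((Ψ ^ m) W)) _).trans ?_
      have b := c0.1 ((Ψ ^ m) W - (Ψ₀ ^ m) W)
      rw [map_sub Ψ₀] at b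
      exact (add_le_add (d1 _ ((c2 m).2 W 1 a1)) (b.trans ih)).trans_eq (by push_cast; ring)
  have d3 : ∀ m : ℕ, ‖S.j a ((Ψ₀ ^ m) W)‖ ≤ θ ^ m ∧ ⟪S.ζ a, (Ψ₀ ^ m) W⟫_ℂ = ⟪S.ζ a, W⟫_ℂ := fun m => by
    induction m with
    | zero => exact ⟨by simpa using (S.j_le a W).trans a2, rfl⟩
    | succ m ih =>
      rw [pow_succ' Ψ₀, mul_ap, smul_apply, sum_apply, map_smul, map_sum, inner_smul_right, inner_sum]
      have e1 : ∀ l U, S.j a ((S.R (s l * a) (s l)⁻¹ * S.L (s l)) U) = S.σ (s l) (S.j a U) :=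
        fun l U => by rw [← S.j_L, ← S.j_R (s l * a) (s l)⁻¹, e]; rfl
      have e2 : ∀ l U, ⟪S.ζ a, (S.R (s l * a) (s l)⁻¹ * S.L (s l)) U⟫_ℂ = ⟪S.ζ a, U⟫_ℂ :=
        fun l U => by rw [← S.in_L (s l) a U, ← S.in_R (s l * a) (s l)⁻¹, e]; rfl
      simp only [e1, e2, ih.2]
      exact ⟨(hθ _).trans (by rw [pow_succ']; exact mul_le_mul_of_nonneg_left ih.1 h0), by
        rw [Finset.sum_const, Finset.card_fin, nsmul_eq_mul,
          inv_mul_cancel_left₀ (Nat.cast_ne_zero.2 hp.ne')]⟩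
  have d4 : S.L 1 (S.R a 1 ((Ψ₀ ^ n) W)) = (Ψ₀ ^ n) W := by
    obtain ⟨m, rfl⟩ := Nat.exists_eq_add_of_le' hn
    rw [pow_succ', mul_ap, smul_apply, sum_apply, map_smul, map_smul, map_sum, map_sum]
    refine congrArg _ (Finset.sum_congr rfl fun l _ => ?_)
    have := hS.R_mul (s l * a) (s l)⁻¹ 1
    rw [e, mul_one] at this
    rw [mul_ap, this, S.comm 1 _ _ (S.L_lf 1) (S.R_rt (s l)⁻¹), hS.L_mul, one_mul, one_mul]
  have d5 := S.j_ge a ((Ψ₀ ^ n) W)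
  rw [d4, (d3 n).2] at d5
  linarith [norm_sub_le_norm_sub_add_norm_sub ((Ψ ^ n) W) ((Ψ₀ ^ n) W) (⟪S.ζ a, W⟫_ℂ • S.ζ a),
    d2 n, (d3 n).1]

theorem adj_close {Φ : H →L[ℂ] H} (h : ∀ v, ‖Φ v‖ ≤ ‖v‖) (v : H) :
    ‖adjoint Φ v - v‖ ≤ √(2 * ‖v‖ * ‖Φ v - v‖) := by
  refine Real.le_sqrt_of_sq_le ?_
  have h1 := norm_adj_le h v
  have h2 := (RCLike.re_le_norm (K := ℂ) ⟪v, v - Φ v⟫_ℂ).trans (norm_inner_le_norm v (v - Φ v))
  rw [inner_sub_right, map_sub, inner_self_eq_norm_sq, norm_sub_rev] at h2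
  rw [@norm_sub_sq ℂ, adjoint_inner_left]
  nlinarith [norm_nonneg (adjoint Φ v)]

/-- **the key estimate** -/
theorem pair (hS : Ex S) (hG : Gp len gap C) (hA : Lev len C A) {a : G} {t w η K : ℝ}
    {Φ : H →L[ℂ] H} (h1 : ∀ v, ‖Φ v‖ ≤ ‖v‖) (h2 : Bnd S len Φ K) (hK : C * K ≤ w / 2)
    (h3 : ∀ W, S.Am W 1 → ‖W‖ ≤ 1 → ‖Φ W - ⟪S.ζ a, W⟫_ℂ • S.ζ a‖ ≤ η) (hX : Gd S len X J)
    (hX' : Gd S len X' J) (h0 : 0 ≤ J) (hJ : C * (J + J) ≤ w / 2) {μ l : ℝ}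
    (hμ : ‖Pr S (A (t - w)) (S.ζ a)‖ = μ) (hl : ‖Pr S (A (t - w) \ A (t + w)) (S.ζ a)‖ = l) :
    ‖⟪Pr S (A t) (X (S.ζ a)), Pr S (A t) (X' (S.ζ a))⟫_ℂ -
      ⟪X (S.ζ a), X' (S.ζ a)⟫_ℂ * (‖Pr S (A t) (S.ζ a)‖ ^ 2 : ℝ)‖ ≤
      μ * (6 * l + η + √(2 * μ * (2 * l + η))) := by
  have c0 : 0 ≤ C * J := mul_nonneg (zero_le_one.trans hG.one_le) h0
  have w0 : 0 ≤ w := by linarith
  have c1 : C * J ≤ w := by linarith
  set ζ := S.ζ a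
  set v := Pr S (A t) ζ with hv
  have hY := (hX.adj hG).mul hG hX'
  have v1 : ‖v‖ ≤ μ := hμ ▸ Pr_mono S (hA.anti (sub_le_self t w0)) ζ
  have m0 : 0 ≤ μ := (norm_nonneg v).trans v1
  have a1 := hl ▸ hX.bnd.comm hG hA c1 hS w0 hX.ct.1 ζ (x := t)
  have a2 := hl ▸ hX'.bnd.comm hG hA c1 hS w0 hX'.ct.1 ζ (x := t)
  have a3 := hl ▸ hY.bnd.comm hG hA (hJ.trans (half_le_self w0)) hS w0 hY.ct.1 ζ (x := t)
  have a4 := hl ▸ h2.comm hG hA (hK.trans (half_le_self w0)) hS w0 h1 ζ (x := t)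
  have a5 : ‖Pr S (A t) (X ζ)‖ ≤ μ := hμ ▸ (hX.bnd.supA hG hA c1).norm_le' hX.ct.1 ζ
  set W := (adjoint X * X') ζ with hW
  have a6 : ‖Pr S (A (t - w / 2)) W‖ ≤ μ := by
    have := (hY.bnd.supA hG hA hJ (x := t - w / 2)).norm_le' hY.ct.1 ζ
    rwa [show t - w / 2 - w / 2 = t - w by ring, hμ] at this
  have a7 := h3 W (hY.ct.2 _ _ (S.am_ζ a)) ((hY.ct.1 _).trans (S.ζ_norm a))
  have a8 := h3 ζ (S.am_ζ a) (S.ζ_norm a)
  rw [inner_self_eq_norm_sq_to_K, hS.ζ_one, RCLike.ofReal_one, one_pow, one_smul] at a8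
  have a9 : ‖adjoint Φ v - v‖ ≤ √(2 * μ * (2 * l + η)) := by
    refine (adj_close h1 v).trans (Real.sqrt_le_sqrt (mul_le_mul (by linarith) ?_ (norm_nonneg _)
      (by linarith)))
    refine (norm_sub_le_norm_sub_add_norm_sub _ (Pr S (A t) (Φ ζ)) _).trans ?_
    rw [norm_sub_rev, hv, ← map_sub]
    exact add_le_add a4 ((norm_Pr_le S _ _).trans a8)
  have pv : ∀ u, ⟪v, Pr S (A t) u⟫_ℂ = ⟪v, u⟫_ℂ := fun u => by rw [← Pr_sa, hv, hS.Pr_idem]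
  have e1 : ⟪v, Φ W⟫_ℂ = ⟪adjoint Φ v, Pr S (A (t - w / 2)) W⟫_ℂ := by
    rw [← pv, h2.supA hG hA hK W, pv, adjoint_inner_left]
  have e2 : ⟪v, W⟫_ℂ = ⟪v, Pr S (A (t - w / 2)) W⟫_ℂ := by
    rw [← Pr_sa, hv, hS.Pr_of_sub (hA.anti (by linarith))]
  have e3 : ⟪v, ζ⟫_ℂ = (‖v‖ ^ 2 : ℝ) := by rw [hv, Pr_sa, hS.inner_Pr]
  have e4 : ⟪ζ, W⟫_ℂ = ⟪X ζ, X' ζ⟫_ℂ := by rw [hW, mul_ap, adjoint_inner_right]
  have e : ⟪Pr S (A t) (X ζ), Pr S (A t) (X' ζ)⟫_ℂ - ⟪X ζ, X' ζ⟫_ℂ * (‖v‖ ^ 2 : ℝ) =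
      ⟪Pr S (A t) (X ζ), Pr S (A t) (X' ζ) - X' v⟫_ℂ + ⟪Pr S (A t) (X ζ) - X v, X' v⟫_ℂ -
      ⟪v, Pr S (A t) W - (adjoint X * X') v⟫_ℂ + ⟪v, Φ W - ⟪ζ, W⟫_ℂ • ζ⟫_ℂ -
      ⟪adjoint Φ v - v, Pr S (A (t - w / 2)) W⟫_ℂ := by
    simp only [inner_sub_left, inner_sub_right, inner_smul_right]
    rw [← e1, ← e2, pv, e3, mul_ap _ _ v, adjoint_inner_right, e4]
    ring
  have ip : ∀ {u u' : H} {α β : ℝ}, ‖u‖ ≤ α → ‖u'‖ ≤ β → ‖⟪u, u'⟫_ℂ‖ ≤ α * β := fun b c =>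
    (norm_inner_le_norm _ _).trans (mul_le_mul b c (norm_nonneg _) ((norm_nonneg _).trans b))
  rw [e]
  refine (norm_sub_le_of_le (norm_add_le_of_le (norm_sub_le_of_le (norm_add_le_of_le (ip a5 a2)
    (ip a1 ((hX'.ct.1 v).trans v1))) (ip v1 a3)) (ip v1 a7)) (ip a9 a6)).trans_eq (by ring)

end Vale.Agent.P092OM
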