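import Vale.Agent.P092OM.Key

/-! P092, block B4, OMEGA: stationary small events give asymptotic embeddings. -/

set_option linter.all false

open Filter Topology ContinuousLinearMap
open scoped InnerProductSpace

noncomputable section

namespace Vale.Agent.P092OM

open Vale.Agent.P092WN Vale.Agent.P092NW

variable {G Γ H H₀ : Type} [Group G] [Group Γ] [NormedAddCommGroup H] [InnerProductSpace ℂ H]
  [CompleteSpace H] [NormedAddCommGroup H₀] [InnerProductSpace ℂ H₀] {S : Sys G Γ H H₀}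
  {len : Γ → ℝ} {r' : ℕ} {gap : Fin r' → Γ → ℝ} {C : ℝ} {A : ℝ → Set Γ} {T : ℝ → ℝ} {a : ℕ → G}
  {t w q J : ℕ → ℝ} {n : ℕ → ℕ}

theorem norm_resc {c : ℝ} (hc : 0 < c) (v : H) : ‖((c⁻¹ : ℝ) : ℂ) • v‖ = ‖v‖ / c := by
  rw [norm_smul, Complex.norm_real, Real.norm_of_nonneg (inv_pos.2 hc).le, inv_mul_eq_div]

theorem emb_ap (E : Set Γ) (g : G) (c : ℝ) (v : H) :
    emb S E g c v = ((c⁻¹ : ℝ) : ℂ) • Pr S E (S.L g v) := rfl

section adm

variable (hS : Ex S) (hG : Gp len gap C) (hA : Lev len C A) (hd : Adm S T A a t w q J n)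
include hd

theorem n_ge : ∀ᶠ k in atTop, 1 ≤ n k := hd.n_top.eventually_ge_atTop 1

theorem eps_q : Tendsto (fun k => Real.exp (-T (J k)) / q k) atTop (𝓝 0) :=
  squeeze_zero' (.of_forall fun k => div_nonneg (Real.exp_pos _).le (hd.q_pos k).le)
    ((n_ge hd).mono fun k h => div_le_div_of_nonneg_right
      (le_mul_of_one_le_left (Real.exp_pos _).le (Nat.one_le_cast.2 h)) (hd.q_pos k).le) hd.err

theorem eps_zero : Tendsto (fun k => Real.exp (-T (J k))) atTop (𝓝 0) := by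
  refine squeeze_zero' (.of_forall fun k => (Real.exp_pos _).le)
    ((hd.up.eventually_const_le (by norm_num : (2⁻¹ : ℝ) < 1)).mono fun k h => ?_)
    (by simpa using (eps_q hd).const_mul 2)
  have h1 := (le_div_iff₀ (hd.q_pos k)).1 h
  have h2 := (norm_Pr_le S (A (t k - w k)) (S.ζ (a k))).trans (S.ζ_norm _)
  rw [mass_eq] at h1
  rw [← mul_div_assoc, le_div_iff₀ (hd.q_pos k)]
  nlinarith [Real.exp_pos (-T (J k))]

include hG in
theorem band_ev (c : ℝ) : ∀ᶠ k in atTop, c ≤ J k ∧ 0 ≤ J k ∧ C * (n k * (J k + J k)) ≤ w k / 2 ∧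
    C * (3 * J k + 3 * J k) ≤ w k / 2 := by
  have c0 : 0 < C := one_pos.trans_le hG.one_le
  filter_upwards [hd.J_top.eventually_ge_atTop c, hd.J_top.eventually_ge_atTop 0, n_ge hd,
    hd.band.eventually_le_const (show 0 < (12 * C)⁻¹ by positivity)] with k h1 h2 h3 h4
  rw [div_le_iff₀ (hd.w_pos k), le_inv_mul_iff₀ (by positivity)] at h4
  have h5 := mul_le_mul_of_nonneg_left (le_mul_of_one_le_left h2 (Nat.one_le_cast.2 h3)) c0.le
  exact ⟨h1, h2, by linarith [hd.w_pos k], by linarith⟩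

include hA

theorem nu_q : Tendsto (fun k => ‖Pr S (A (t k)) (S.ζ (a k))‖ / q k) atTop (𝓝 1) :=
  tendsto_of_tendsto_of_tendsto_of_le_of_le hd.lo hd.up
    (fun k => div_le_div_of_nonneg_right (Pr_mono S (hA.anti (le_add_of_nonneg_right
      (hd.w_pos k).le)) _) (hd.q_pos k).le)
    fun k => div_le_div_of_nonneg_right (Pr_mono S (hA.anti (sub_le_self _ (hd.w_pos k).le)) _)
      (hd.q_pos k).le

include hS

theorem lay_q : Tendsto (fun k => ‖Pr S (A (t k - w k) \ A (t k + w k)) (S.ζ (a k))‖ / q k)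
    atTop (𝓝 0) := by
  have := ((hd.up.pow 2).sub (hd.lo.pow 2)).sqrt
  rw [sub_self, Real.sqrt_zero] at this
  refine this.congr fun k => ?_
  rw [div_pow, div_pow, ← sub_div, mass_eq, mass_eq, ← hS.Pr_diff_sq (hA.anti (by
    linarith [hd.w_pos k])), ← div_pow, Real.sqrt_sq (div_nonneg (norm_nonneg _) (hd.q_pos k).le)]

include hG

theorem comm_ev : ∀ᶠ k in atTop, ∀ X B U, Gd S len X (J k) → Gd S len B (J k + J k) →
    ‖U - B (S.ζ (a k))‖ ≤ Real.exp (-T (J k)) →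
    ‖Pr S (A (t k)) (X U) - X (Pr S (A (t k)) U)‖ ≤ 2 * (Real.exp (-T (J k)) +
      ‖Pr S (A (t k - w k) \ A (t k + w k)) (S.ζ (a k))‖) := by
  filter_upwards [band_ev hG hd 0] with k ⟨_, h1, _, h2⟩ X B U hX hB hU
  have c0 := mul_nonneg (zero_le_one.trans hG.one_le) h1
  refine (hX.bnd.comm hG hA (d := w k / 2) (by linarith) hS (by linarith) hX.ct.1 U).trans
    (mul_le_mul_of_nonneg_left ?_ zero_le_two)
  have := (hB.bnd.lay hG hA (d := w k / 2) (by linarith) (x := t k - w k / 2)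
    (y := t k + w k / 2)).norm_le' hB.ct.1 (S.ζ (a k))
  rw [show t k - w k / 2 - w k / 2 = t k - w k by ring,
    show t k + w k / 2 + w k / 2 = t k + w k by ring] at this
  rw [← sub_add_cancel U (B (S.ζ (a k))), map_add]
  exact norm_add_le_of_le ((norm_Pr_le S _ _).trans hU) this

variable [TopologicalSpace G] (hT : S.Tail len T)
include hT

omit hA in
theorem approx {b : G → H →L[ℂ] H} {τ : Γ} (hb : Hm S b τ) (g : G) : ∀ᶠ k in atTop,
    ∃ B, Gd S len B (J k + J k) ∧ ‖S.L (a k) (b 1 (S.ζ g)) - B (S.ζ (a k))‖ ≤ Real.exp (-T (J k)) := by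
  filter_upwards [band_ev hG hd (len τ), hd.J_top.eventually (hT.2 {g} isCompact_singleton)]
    with k h1 h2
  obtain ⟨z⟩ := (h2 g rfl).2
  refine ⟨_, ((gd_hm hS hG hb (a k)).mono h1.1).mul hG (gd_ra hS hG z (a k)), ?_⟩
  rw [S.comm _ _ _ (S.L_lf _) hb.rt, mul_one, S.L_ζ, ← S.R_ζ, mul_ap, ← map_sub, ]
  exact ((hb.ct _).1 _).trans (by rw [norm_sub_rev]; simpa using z.err _ _ 1 (S.am_ζ _))

theorem pair_ev {p : ℕ} {s : Fin p → G} (hp : 0 < p) (hs : ∀ l k, s l * a k = a k * s l) {θ : ℝ}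
    (h0 : 0 ≤ θ) (h1 : θ < 1) (hθ : ∀ v, ‖((p : ℂ))⁻¹ • ∑ l, S.σ (s l) v‖ ≤ θ * ‖v‖) :
    ∃ e : ℕ → ℝ, Tendsto e atTop (𝓝 0) ∧ ∀ᶠ k in atTop, ∀ X X', Gd S len X (3 * J k) →
      Gd S len X' (3 * J k) → ‖⟪(((q k)⁻¹ : ℝ) : ℂ) • Pr S (A (t k)) (X (S.ζ (a k))),
        (((q k)⁻¹ : ℝ) : ℂ) • Pr S (A (t k)) (X' (S.ζ (a k)))⟫_ℂ - ⟪X (S.ζ (a k)), X' (S.ζ (a k))⟫_ℂ *
        ((‖Pr S (A (t k)) (S.ζ (a k))‖ / q k) ^ 2 : ℝ)‖ ≤ e k := by
  have l0 := lay_q hS hA hd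
  have e0 := (hd.gap θ h0 h1).add (hd.err.const_mul 2)
  have := hd.up.mul (((l0.const_mul 6).add e0).add ((hd.up.const_mul 2).mul
    ((l0.const_mul 2).add e0)).sqrt)
  simp only [mul_zero, add_zero, Real.sqrt_zero] at this
  refine ⟨_, this, ?_⟩
  filter_upwards [band_ev hG hd 0, n_ge hd,
    eventually_all.2 fun l => hd.J_top.eventually (hT.2 {s l} isCompact_singleton),
    eventually_all.2 fun l => hd.J_top.eventually (hT.2 {(s l)⁻¹} isCompact_singleton)]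
    with k ⟨_, b1, b2, b3⟩ b4 b5 b6 X X' hX hX'
  obtain ⟨Φ, c1, c2, c3⟩ := exists_avg hS hG hp (hs · k) h0 hθ (fun l => (b5 l _ rfl).1.some)
    (fun l => (b6 l _ rfl).2.some) b4
  have hq := hd.q_pos k
  have := div_le_div_of_nonneg_right (pair hS hG hA (t := t k) c1 c2 b2 c3 hX hX' (by linarith) b3
    rfl rfl) (pow_pos hq 2).le
  refine le_of_eq_of_le ?_ (this.trans_eq ?_)
  · rw [← norm_resc (H := ℂ) (pow_pos hq 2), inner_smul_left, inner_smul_right, Complex.conj_ofReal]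
    congr 1
    push_cast
    rw [smul_eq_mul]
    ring
  · rw [mass_eq, show ∀ x y z u : ℝ, 2 * (x / q k) * (2 * (y / q k) + (z / q k + 2 * (u / q k))) =
      2 * x * (2 * y + (z + 2 * u)) / q k ^ 2 from fun x y z u => by field_simp,
      Real.sqrt_div' _ (pow_pos hq 2).le, Real.sqrt_sq hq.le]
    field_simp

end adm

/-- **OMEGA.** -/
theorem emb_of_adm [TopologicalSpace G] (hS : Ex S) (hG : Gp len gap C) (hA : Lev len C A)
    (hT : S.Tail len T) {Z : Subgroup G} (hZ : ∀ z ∈ Z, ∀ k, z * a k = a k * z) {p : ℕ}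
    {s : Fin p → G} (hs : ∀ l, s l ∈ Z) (hp : 0 < p) {θ : ℝ} (h0 : 0 ≤ θ) (h1 : θ < 1)
    (hθ : ∀ v, ‖((p : ℂ))⁻¹ • ∑ l, S.σ (s l) v‖ ≤ θ * ‖v‖) (hd : Adm S T A a t w q J n) :
    Emb S len Z a fun k => emb S (A (t k)) (a k) (q k) := by
  obtain ⟨e, e0, he⟩ := pair_ev hS hG hA hd hT hp (fun l => hZ _ (hs l)) h0 h1 hθ
  have t1 := eps_q hd
  have t2 := eps_zero hd
  have t3 := nu_q hA hd
  have t4 := lay_q hS hA hd
  have ip : ∀ {u u' : H} {α β : ℝ}, ‖u‖ ≤ α → ‖u'‖ ≤ β → ‖⟪u, u'⟫_ℂ‖ ≤ α * β := fun b c =>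
    (norm_inner_le_norm _ _).trans (mul_le_mul b c (norm_nonneg _) ((norm_nonneg _).trans b))
  refine ⟨fun ξ hξ ξ' hξ' => ?_, fun b τ hb ξ hξ => tendsto_zero_iff_norm_tendsto_zero.1 ?_,
    fun h hh J₀ N ε y b τ g hb δ hδ => ?_⟩
  · induction hξ using Submodule.span_induction with
    | zero => simp
    | add u v _ _ hu hv => simpa only [map_add, inner_add_left] using hu.add hv
    | smul c u _ hu => simpa only [map_smul, inner_smul_left] using hu.const_mul _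
    | mem ξ hξ =>
    induction hξ' using Submodule.span_induction with
    | zero => simp
    | add u v _ _ hu hv => simpa only [map_add, inner_add_right] using hu.add hv
    | smul c u _ hu => simpa only [map_smul, inner_smul_right] using hu.const_mul _
    | mem ξ' hξ' =>
    obtain ⟨b, τ, g, hb, rfl⟩ := hξ
    obtain ⟨b', τ', g', hb', rfl⟩ := hξ'
    have := ((((t1.mul (t1.add hd.up)).add (hd.up.mul t1)).add e0).add
      ((t3.pow 2).sub_const 1).abs).add (t2.add t2)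
    simp only [zero_mul, mul_zero, add_zero, one_pow, sub_self, abs_zero] at this
    refine tendsto_iff_norm_sub_tendsto_zero.2 (squeeze_zero' (.of_forall fun _ => norm_nonneg _)
      ?_ this)
    filter_upwards [approx hS hG hd hT hb g, approx hS hG hd hT hb' g', he, band_ev hG hd 0]
      with k ⟨B, c1, c2⟩ ⟨B', c3, c4⟩ c5 ⟨_, c6, _, c7⟩
    have hq := hd.q_pos k
    have c0 := mul_nonneg (zero_le_one.trans hG.one_le) c6
    have d1 : ∀ {B U}, ‖U - B (S.ζ (a k))‖ ≤ Real.exp (-T (J k)) →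
        ‖(((q k)⁻¹ : ℝ) : ℂ) • Pr S (A (t k)) U - (((q k)⁻¹ : ℝ) : ℂ) • Pr S (A (t k))
          ((B : H →L[ℂ] H) (S.ζ (a k)))‖ ≤ Real.exp (-T (J k)) / q k := fun c => by
      rw [← smul_sub, ← map_sub, norm_resc hq]
      exact div_le_div_of_nonneg_right ((norm_Pr_le S _ _).trans c) hq.le
    have d2 : ∀ {B}, Gd S len B (J k + J k) → ‖(((q k)⁻¹ : ℝ) : ℂ) • Pr S (A (t k)) (B (S.ζ (a k)))‖ ≤
        S.mass (A (t k - w k)) (S.ζ (a k)) / q k := fun c => by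
      rw [norm_resc hq]
      exact div_le_div_of_nonneg_right ((c.bnd.supA hG hA (by linarith)).norm_le' c.ct.1 _) hq.le
    have d3 : ⟪b 1 (S.ζ g), b' 1 (S.ζ g')⟫_ℂ =
        ⟪S.L (a k) (b 1 (S.ζ g)), S.L (a k) (b' 1 (S.ζ g'))⟫_ℂ := by
      rw [hS.L_adj, hS.L_mul, inv_mul_cancel, S.comm _ _ _ (S.L_lf 1) hb'.rt, hS.L_one_ζ, mul_one]
    have d4 : ‖S.L (a k) (b 1 (S.ζ g))‖ ≤ 1 := (S.L_le _ _).trans (((hb.ct 1).1 _).trans (S.ζ_norm g))
    have d5 : ‖B (S.ζ (a k))‖ ≤ 1 := (c1.ct.1 _).trans (S.ζ_norm _)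
    have d6 : ‖B' (S.ζ (a k))‖ ≤ 1 := (c3.ct.1 _).trans (S.ζ_norm _)
    have d7 := c5 B B' (c1.mono (by linarith)) (c3.mono (by linarith))
    have d8 := d1 c2
    have d9 := d1 c4
    have d10 := d2 c1
    have d11 := d2 c3
    rw [emb_ap, emb_ap, d3]
    generalize S.L (a k) (b 1 (S.ζ g)) = U at *
    generalize S.L (a k) (b' 1 (S.ζ g')) = U' at *
    generalize B (S.ζ (a k)) = V at *
    generalize B' (S.ζ (a k)) = V' at *
    generalize (((q k)⁻¹ : ℝ) : ℂ) • Pr S (A (t k)) U = u at *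
    generalize (((q k)⁻¹ : ℝ) : ℂ) • Pr S (A (t k)) U' = u' at *
    generalize (((q k)⁻¹ : ℝ) : ℂ) • Pr S (A (t k)) V = v at *
    generalize (((q k)⁻¹ : ℝ) : ℂ) • Pr S (A (t k)) V' = v' at *
    generalize (‖Pr S (A (t k)) (S.ζ (a k))‖ / q k) ^ 2 = ρ at *
    rw [show ⟪u, u'⟫_ℂ - ⟪U, U'⟫_ℂ = ⟪u - v, u' - v' + v'⟫_ℂ + ⟪v, u' - v'⟫_ℂ +
      (⟪v, v'⟫_ℂ - ⟪V, V'⟫_ℂ * ρ) + ⟪V, V'⟫_ℂ * (ρ - 1 : ℝ) - (⟪U - V, V'⟫_ℂ + ⟪U, U' - V'⟫_ℂ) by
        simp only [sub_add_cancel, inner_sub_left, inner_sub_right]; push_cast; ring]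
    refine norm_sub_le_of_le (norm_add_le_of_le (norm_add_le_of_le (norm_add_le_of_le
      (ip d8 (norm_add_le_of_le d9 d11)) (ip d10 d9)) d7) ?_) (norm_add_le_of_le
      ((ip c2 d6).trans_eq (mul_one _)) ((ip d4 c4).trans_eq (one_mul _)))
    rw [norm_mul, Complex.norm_real, Real.norm_eq_abs]
    exact mul_le_of_le_one_left (abs_nonneg _) ((ip d5 d6).trans_eq (one_mul _))
  · induction hξ using Submodule.span_induction with
    | zero => simp
    | add u v _ _ hu hv => simpa only [map_add, add_sub_add_comm, add_zero] using hu.add hv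
    | smul c u _ hu => simpa only [map_smul, smul_sub, smul_zero] using hu.const_smul c
    | mem ξ hξ =>
    obtain ⟨b', τ', g, hb', rfl⟩ := hξ
    refine squeeze_zero_norm' ?_ (by simpa using (t1.add t4).const_mul 2)
    filter_upwards [approx hS hG hd hT hb' g, comm_ev hS hG hA hd, band_ev hG hd (len τ)]
      with k ⟨B, c1, c2⟩ c3 c4
    rw [emb_ap, emb_ap, map_smul, ← smul_sub, norm_resc (hd.q_pos k), S.comm _ _ _ (S.L_lf _) hb.rt,
      mul_one, ← add_div, ← mul_div_assoc]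
    exact div_le_div_of_nonneg_right (c3 _ B _ ((gd_hm hS hG hb _).mono c4.1) c1 c2) (hd.q_pos k).le
  · have := (((t1.const_mul 3).add ((t1.add t4).const_mul 2)).add
      (((t2.const_add ε).mul t3).add (e0.sqrt.const_mul 2))).eventually_le_const
      (show _ < ε + δ by simpa using hδ)
    filter_upwards [this, approx hS hG hd hT hb g, he, comm_ev hS hG hA hd, band_ev hG hd J₀,
      hd.J_top.eventually (hT.2 {h} isCompact_singleton)] with k c0 ⟨B, c1, c2⟩ c3 c4 c5 c6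
    obtain ⟨z⟩ := (c6 h rfl).1
    have hq := hd.q_pos k
    have g1 := (gd_lb hS hG y).mono c5.1
    have g2 := gd_la hS hG z
    have g3 := ((g2.half g1).mul hG c1).mono (J' := 3 * J k) (by linarith)
    have d0 : S.Am (S.L (a k) (b 1 (S.ζ g))) 1 := (hS.L_ct _).2 _ _ ((hb.ct 1).2 _ _ (S.am_ζ g))
    have d1 := z.err _ 1 d0
    have d2 := c4 _ B _ g1 c1 c2
    have d3 := z.err _ 1 (c1.ct.2 _ _ (S.am_ζ (a k)))
    have d4 := y.err _ 1 (c1.ct.2 _ _ (S.am_ζ (a k)))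
    have d5 := c3 _ _ g3 g3
    rw [mul_one] at d1 d3 d4
    rw [emb_ap, emb_ap, map_smul, ← smul_sub, norm_resc hq, hS.L_mul, ← hZ h hh, ← hS.L_mul]
    refine le_trans ?_ c0
    change ‖y.op _ - _‖ ≤ ε at d4
    generalize S.L (a k) (b 1 (S.ζ g)) = U at *
    generalize ∑ s ∈ z.F, z.l s = Y at *
    have f1 : ∀ u : H, u = (2 : ℂ) • ((2⁻¹ : ℝ) : ℂ) • u := fun u => by rw [smul_smul]; simp
    have f2 : ‖((((2⁻¹ : ℝ) : ℂ) • (Y - y.op)) * B) (S.ζ (a k))‖ ≤ (ε + Real.exp (-T (J k))) / 2 := by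
      rw [mul_ap, smul_apply, norm_resc two_pos, sub_apply]
      exact div_le_div_of_nonneg_right ((norm_sub_le_norm_sub_add_norm_sub _ _ _).trans
        ((add_le_add d3 ((norm_sub_rev _ _).trans_le d4)).trans_eq (add_comm _ _))) zero_le_two
    have f3 : ‖Pr S (A (t k)) (S.L h U) - y.op (Pr S (A (t k)) U)‖ ≤ 3 * Real.exp (-T (J k)) +
        2 * (Real.exp (-T (J k)) + ‖Pr S (A (t k - w k) \ A (t k + w k)) (S.ζ (a k))‖) +
        2 * ‖Pr S (A (t k)) (((((2⁻¹ : ℝ) : ℂ) • (Y - y.op)) * B) (S.ζ (a k)))‖ := by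
      rw [show Pr S (A (t k)) (S.L h U) - y.op (Pr S (A (t k)) U) =
        Pr S (A (t k)) (Y (U - B (S.ζ (a k))) - (Y U - S.L h U) - y.op (U - B (S.ζ (a k)))) +
        (Pr S (A (t k)) (y.op U) - y.op (Pr S (A (t k)) U)) +
        (2 : ℂ) • Pr S (A (t k)) (((((2⁻¹ : ℝ) : ℂ) • (Y - y.op)) * B) (S.ζ (a k))) by
          rw [mul_ap, smul_apply, map_smul, ← f1]; simp only [sub_apply, map_sub]; abel]
      refine norm_add_le_of_le (norm_add_le_of_le ((norm_Pr_le S _ _).trans ((norm_sub_le_of_le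
        (norm_sub_le_of_le ((g2.ct.1 _).trans c2) d1) ((g1.ct.1 _).trans c2)).trans_eq (by ring)))
        d2) (by rw [norm_smul, Complex.norm_two])
    rw [inner_self_eq_norm_sq_to_K, inner_self_eq_norm_sq_to_K, norm_resc hq] at d5
    generalize ((((2⁻¹ : ℝ) : ℂ) • (Y - y.op)) * B) (S.ζ (a k)) = V at *
    have f4 : (‖Pr S (A (t k)) V‖ / q k) ^ 2 - (‖V‖ * (‖Pr S (A (t k)) (S.ζ (a k))‖ / q k)) ^ 2 ≤ e k := by
      refine (le_abs_self _).trans (le_of_eq_of_le ?_ d5)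
      rw [← Real.norm_eq_abs, ← Complex.norm_real]
      congr 1
      push_cast
      rw [mul_pow]
      rfl
    have ρ0 : 0 ≤ ‖Pr S (A (t k)) (S.ζ (a k))‖ / q k := div_nonneg (norm_nonneg _) hq.le
    have f5 : ‖Pr S (A (t k)) V‖ / q k ≤ ‖V‖ * (‖Pr S (A (t k)) (S.ζ (a k))‖ / q k) + √(e k) := by
      refine (sq_le_sq₀ (by positivity) (by positivity)).1 ?_
      nlinarith [Real.sq_sqrt ((norm_nonneg _).trans d5), mul_nonneg (mul_nonneg (norm_nonneg V) ρ0)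
        (Real.sqrt_nonneg (e k))]
    refine (div_le_div_of_nonneg_right f3 hq.le).trans ?_
    simp only [add_div, mul_div_assoc, mul_add] at f2 ⊢
    nlinarith [mul_le_mul_of_nonneg_right f2 ρ0]

end Vale.Agent.P092OM
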